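import Vale.Agent.P046.All

namespace Vale.Agent.Results.P046.A_Limit

open Filter Topology Vale.Agent.P046

theorem result :
    (∀ n : ℕ, ∀ G ∈ (final n).support, G.CliqueFree 3) ∧
    (∀ ε : ℝ, 0 < ε → Tendsto (fun n : ℕ =>
      (final n).toOuterMeasure {G | ε ≤ |normEdges G - 1 / (2 * Real.sqrt 2)|}) atTop (𝓝 0)) ∧
    Tendsto (fun n : ℕ => expFinal n normEdges) atTop (𝓝 (1 / (2 * Real.sqrt 2))) ∧
    Tendsto (fun n : ℕ => expFinal n fun G => (normEdges G - 1 / (2 * Real.sqrt 2)) ^ 2)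
      atTop (𝓝 0) :=
  ⟨fun n => (proc_ok n).2, prob_final proc_ok mainS_all, mean_final proc_ok mainS_all,
    l2_final proc_ok mainS_all⟩

end Vale.Agent.Results.P046.A_Limit
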